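import Crest.Agent.N111.Lat.Rep

/-!
# Row 111: Borel positive-operator and projection valued measures (helper54)
-/

set_option autoImplicit false
set_option linter.unusedSectionVars false

noncomputable section

namespace Crest.Agent.N111

open MeasureTheory Filter Topology Set
open scoped InnerProductSpace ComplexConjugate ENNReal

section Op

variable {H : Type*} [NormedAddCommGroup H] [InnerProductSpace ℂ H]

theorem op_ext {S T : H →L[ℂ] H} (h : ∀ ξ, ⟪ξ, S ξ⟫_ℂ = ⟪ξ, T ξ⟫_ℂ) : S = T := by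
  have := (ext_inner_map (S : H →ₗ[ℂ] H) (T : H →ₗ[ℂ] H)).1 fun ξ => by
    rw [← inner_conj_symm, ← inner_conj_symm ((T : H →ₗ[ℂ] H) ξ)]
    exact congrArg conj (h ξ)
  exact ContinuousLinearMap.coe_injective this

theorem inner_polar (T : H →L[ℂ] H) (η ξ : H) :
    ⟪η, T ξ⟫_ℂ = (⟪η + ξ, T (η + ξ)⟫_ℂ - ⟪η - ξ, T (η - ξ)⟫_ℂ
      - Complex.I * ⟪η + Complex.I • ξ, T (η + Complex.I • ξ)⟫_ℂ
      + Complex.I * ⟪η - Complex.I • ξ, T (η - Complex.I • ξ)⟫_ℂ) / 4 := by
  simp only [map_add, map_sub, map_smul, inner_add_left, inner_add_right, inner_sub_left,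
    inner_sub_right, inner_smul_left, inner_smul_right, Complex.conj_I]
  ring_nf
  simp only [Complex.I_sq]
  ring

theorem wtends_of_inner {α : Type*} {l : Filter α} {T : α → H →L[ℂ] H} {T₀ : H →L[ℂ] H}
    (h : ∀ ξ, Tendsto (fun t => ⟪ξ, T t ξ⟫_ℂ) l (𝓝 ⟪ξ, T₀ ξ⟫_ℂ)) : WTends l T T₀ := by
  intro η ξ
  simp only [inner_polar _ η ξ]
  exact ((((h _).sub (h _)).sub ((h _).const_mul _)).add ((h _).const_mul _)).div_const _

end Op

/-- bounded measurable complex functions -/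
structure BM {Y : Type*} [MeasurableSpace Y] (a : Y → ℂ) : Prop where
  meas : Measurable a
  bdd : ∃ C, ∀ y, ‖a y‖ ≤ C

namespace BM

variable {Y Z : Type*} [MeasurableSpace Y] [MeasurableSpace Z] {a b : Y → ℂ}

theorem bdd' (ha : BM a) : ∃ C, 0 ≤ C ∧ ∀ y, ‖a y‖ ≤ C :=
  let ⟨C, h⟩ := ha.bdd; ⟨max C 0, le_max_right _ _, fun y => (h y).trans (le_max_left _ _)⟩

theorem const (c : ℂ) : BM (fun _ : Y => c) := ⟨measurable_const, ‖c‖, fun _ => le_rfl⟩

theorem one : BM (1 : Y → ℂ) := const 1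

theorem zero : BM (0 : Y → ℂ) := const 0

theorem add (ha : BM a) (hb : BM b) : BM (a + b) :=
  let ⟨C, h⟩ := ha.bdd; let ⟨D, k⟩ := hb.bdd
  ⟨ha.meas.add hb.meas, C + D, fun y => (norm_add_le _ _).trans (add_le_add (h y) (k y))⟩

theorem neg (ha : BM a) : BM (-a) :=
  let ⟨C, h⟩ := ha.bdd; ⟨ha.meas.neg, C, fun y => by simpa using h y⟩

theorem sub (ha : BM a) (hb : BM b) : BM (a - b) := by
  simpa [sub_eq_add_neg] using ha.add hb.neg

theorem mul (ha : BM a) (hb : BM b) : BM (a * b) :=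
  let ⟨C, hC, h⟩ := ha.bdd'; let ⟨D, k⟩ := hb.bdd
  ⟨ha.meas.mul hb.meas, C * D, fun y => (norm_mul_le _ _).trans
    (mul_le_mul (h y) (k y) (norm_nonneg _) hC)⟩

theorem smul (c : ℂ) (ha : BM a) : BM (c • a) := (const c).mul ha

theorem star (ha : BM a) : BM (star a) :=
  let ⟨C, h⟩ := ha.bdd
  ⟨Complex.continuous_conj.measurable.comp ha.meas, C, fun y => by simpa using h y⟩

theorem sum {ι : Type*} (s : Finset ι) {a : ι → Y → ℂ} (h : ∀ i ∈ s, BM (a i)) :
    BM (∑ i ∈ s, a i) :=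
  Finset.sum_induction a BM (fun _ _ => add) zero h

theorem comp (ha : BM a) {φ : Z → Y} (hφ : Measurable φ) : BM (a ∘ φ) :=
  let ⟨C, h⟩ := ha.bdd; ⟨ha.meas.comp hφ, C, fun _ => h _⟩

theorem indicator (ha : BM a) {s : Set Y} (hs : MeasurableSet s) : BM (s.indicator a) :=
  let ⟨C, hC, h⟩ := ha.bdd'
  ⟨ha.meas.indicator hs, C, fun y => by
    by_cases hy : y ∈ s
    · rw [indicator_of_mem hy]; exact h y
    · rw [indicator_of_notMem hy, norm_zero]; exact hC⟩

theorem ind {s : Set Y} (hs : MeasurableSet s) : BM (s.indicator (1 : Y → ℂ)) := one.indicator hs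

theorem ofReal {r : Y → ℝ} (hr : Measurable r) {C : ℝ} (h : ∀ y, |r y| ≤ C) :
    BM (fun y => (r y : ℂ)) :=
  ⟨Complex.measurable_ofReal.comp hr, C, fun y => by simpa using h y⟩

theorem normSq (ha : BM a) : BM (fun y => ((‖a y‖ ^ 2 : ℝ) : ℂ)) :=
  let ⟨C, h⟩ := ha.bdd
  ofReal (ha.meas.norm.pow_const 2) (C := C ^ 2) fun y => by
    rw [abs_of_nonneg (sq_nonneg _)]
    exact pow_le_pow_left₀ (norm_nonneg _) (h y) 2

theorem integrable (ha : BM a) (ν : Measure Y) [IsFiniteMeasure ν] : Integrable a ν :=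
  let ⟨C, h⟩ := ha.bdd
  Integrable.of_bound ha.meas.aestronglyMeasurable C (Eventually.of_forall h)

theorem of_continuous [TopologicalSpace Y] [OpensMeasurableSpace Y] (ha : Continuous a) {C : ℝ}
    (h : ∀ y, ‖a y‖ ≤ C) : BM a := ⟨ha.measurable, C, h⟩

theorem of_compactSupport [TopologicalSpace Y] [OpensMeasurableSpace Y] (ha : Continuous a)
    (h : HasCompactSupport a) : BM a :=
  ⟨ha.measurable, ha.bounded_above_of_compact_support h⟩

theorem of_compactSpace [TopologicalSpace Y] [OpensMeasurableSpace Y] [CompactSpace Y]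
    (ha : Continuous a) : BM a :=
  of_compactSupport ha (HasCompactSupport.of_compactSpace a)

theorem of_bcf [TopologicalSpace Y] [OpensMeasurableSpace Y] (a : BoundedContinuousFunction Y ℂ) :
    BM a := ⟨a.continuous.measurable, ‖a‖, a.norm_coe_le_norm⟩

end BM

/-- normalised positive operator valued measures, with their scalar measures -/
structure POVM (Y : Type*) [MeasurableSpace Y] (H : Type*) [NormedAddCommGroup H]
    [InnerProductSpace ℂ H] where
  /-- the functional calculus -/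
  f : (Y → ℂ) → H →L[ℂ] H
  /-- the scalar measures -/
  μ : H → Measure Y
  mass : ∀ ξ, μ ξ univ = ENNReal.ofReal (‖ξ‖ ^ 2)
  inner_eq : ∀ a, BM a → ∀ ξ, ⟪ξ, f a ξ⟫_ℂ = ∫ y, a y ∂μ ξ

/-- projection valued measures -/
structure PVM (Y : Type*) [MeasurableSpace Y] (H : Type*) [NormedAddCommGroup H]
    [InnerProductSpace ℂ H] extends POVM Y H where
  mul : ∀ a b, BM a → BM b → f (a * b) = f a * f b

variable {Y Z : Type*} [MeasurableSpace Y] [MeasurableSpace Z] {H : Type*} [NormedAddCommGroup H]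
  [InnerProductSpace ℂ H] {a b : Y → ℂ}

namespace POVM

variable (E : POVM Y H)

instance (ξ : H) : IsFiniteMeasure (E.μ ξ) := ⟨by rw [E.mass]; exact ENNReal.ofReal_lt_top⟩

theorem real_univ (ξ : H) : (E.μ ξ).real univ = ‖ξ‖ ^ 2 := by
  rw [measureReal_def, E.mass, ENNReal.toReal_ofReal (sq_nonneg _)]

theorem f_const (c : ℂ) : E.f (fun _ => c) = c • (1 : H →L[ℂ] H) :=
  op_ext fun ξ => by
    rw [E.inner_eq _ (BM.const c), integral_const, real_univ]
    simp [inner_self_eq_norm_sq_to_K, mul_comm]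

theorem f_one : E.f 1 = 1 := (E.f_const 1).trans (one_smul _ _)

theorem f_zero : E.f 0 = 0 := (E.f_const 0).trans (zero_smul _ _)

theorem f_add (ha : BM a) (hb : BM b) : E.f (a + b) = E.f a + E.f b :=
  op_ext fun ξ => by
    rw [add_apply, inner_add_right, E.inner_eq _ ha, E.inner_eq _ hb,
      E.inner_eq _ (ha.add hb), ← integral_add (ha.integrable _) (hb.integrable _)]
    rfl

theorem f_smul (c : ℂ) (ha : BM a) : E.f (c • a) = c • E.f a :=
  op_ext fun ξ => by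
    rw [smul_apply, inner_smul_right, E.inner_eq _ ha,
      E.inner_eq _ (ha.smul c), ← integral_const_mul]
    rfl

theorem f_neg (ha : BM a) : E.f (-a) = -E.f a := by simpa using E.f_smul (-1) ha

theorem f_sub (ha : BM a) (hb : BM b) : E.f (a - b) = E.f a - E.f b := by
  rw [sub_eq_add_neg, E.f_add ha hb.neg, E.f_neg hb, sub_eq_add_neg]

theorem f_sum {ι : Type*} (s : Finset ι) {a : ι → Y → ℂ} (h : ∀ i ∈ s, BM (a i)) :
    E.f (∑ i ∈ s, a i) = ∑ i ∈ s, E.f (a i) := by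
  classical
  induction s using Finset.induction_on with
  | empty => simpa using E.f_zero
  | insert i s hi ih =>
    rw [Finset.sum_insert hi, Finset.sum_insert hi, E.f_add (h i (by simp))
      (BM.sum s fun j hj => h j (by simp [hj])), ih fun j hj => h j (by simp [hj])]

theorem f_congr (ha : BM a) (hb : BM b) (h : ∀ ξ, a =ᵐ[E.μ ξ] b) : E.f a = E.f b :=
  op_ext fun ξ => by rw [E.inner_eq _ ha, E.inner_eq _ hb, integral_congr_ae (h ξ)]

theorem inner_ofReal {r : Y → ℝ} (hr : BM fun y => (r y : ℂ)) (ξ : H) :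
    ⟪ξ, E.f (fun y => (r y : ℂ)) ξ⟫_ℂ = (∫ y, r y ∂E.μ ξ : ℝ) := by
  rw [E.inner_eq _ hr, integral_complex_ofReal]

theorem inner_ind {s : Set Y} (hs : MeasurableSet s) (ξ : H) :
    ⟪ξ, E.f (s.indicator 1) ξ⟫_ℂ = (E.μ ξ).real s := by
  rw [E.inner_eq _ (BM.ind hs), integral_indicator hs]
  simp [measureReal_def]

theorem norm_inner_le (ha : BM a) {C : ℝ} (ξ : H) (h : ∀ᵐ y ∂E.μ ξ, ‖a y‖ ≤ C) :
    ‖⟪ξ, E.f a ξ⟫_ℂ‖ ≤ C * ‖ξ‖ ^ 2 := by
  rw [E.inner_eq _ ha, ← E.real_univ]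
  exact norm_integral_le_of_norm_le_const h

/-- dominated convergence, weak form -/
theorem wtends {α : Type*} {l : Filter α} [l.IsCountablyGenerated] {u : α → Y → ℂ}
    (hu : ∀ t, BM (u t)) (ha : BM a) {C : ℝ} (hC : ∀ t y, ‖u t y‖ ≤ C)
    (h : ∀ ξ, ∀ᵐ y ∂E.μ ξ, Tendsto (fun t => u t y) l (𝓝 (a y))) :
    WTends l (fun t => E.f (u t)) (E.f a) :=
  wtends_of_inner fun ξ => by
    simp only [fun t => E.inner_eq _ (hu t) ξ, E.inner_eq _ ha ξ]
    exact tendsto_integral_filter_of_dominated_convergence (fun _ => C)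
      (Eventually.of_forall fun t => (hu t).meas.aestronglyMeasurable)
      (Eventually.of_forall fun t => Eventually.of_forall (hC t)) (integrable_const _) (h ξ)

/-- push-forward -/
def map (φ : Y → Z) (hφ : Measurable φ) : POVM Z H where
  f a := E.f (a ∘ φ)
  μ ξ := (E.μ ξ).map φ
  mass ξ := by rw [Measure.map_apply hφ MeasurableSet.univ, preimage_univ, E.mass]
  inner_eq a ha ξ := by
    rw [E.inner_eq _ (ha.comp hφ), integral_map hφ.aemeasurable ha.meas.aestronglyMeasurable]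
    rfl

variable [CompleteSpace H]

theorem f_star (ha : BM a) : E.f (star a) = star (E.f a) :=
  op_ext fun ξ => by
    rw [ContinuousLinearMap.star_eq_adjoint, ContinuousLinearMap.adjoint_inner_right,
      ← inner_conj_symm (E.f a ξ), E.inner_eq _ ha, E.inner_eq _ ha.star, ← integral_conj]
    rfl

theorem isSelfAdjoint {r : Y → ℝ} (hr : BM fun y => (r y : ℂ)) :
    IsSelfAdjoint (E.f fun y => (r y : ℂ)) := by
  rw [IsSelfAdjoint, ← E.f_star hr]
  congr 1
  funext y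
  simp

theorem nonneg {r : Y → ℝ} (hr : BM fun y => (r y : ℂ)) (h : ∀ y, 0 ≤ r y) :
    0 ≤ E.f fun y => (r y : ℂ) := by
  rw [ContinuousLinearMap.nonneg_iff_isPositive, ContinuousLinearMap.isPositive_def']
  refine ⟨E.isSelfAdjoint hr, fun ξ => ?_⟩
  rw [ContinuousLinearMap.reApplyInnerSelf_apply, inner_re_symm, E.inner_ofReal hr]
  exact integral_nonneg h

/-- measures are determined by continuous functions: transport along an isometry -/
theorem μ_eq_of_continuous [TopologicalSpace Y] [HasOuterApproxClosed Y] [BorelSpace Y]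
    {H' : Type*} [NormedAddCommGroup H'] [InnerProductSpace ℂ H'] (E' : POVM Y H') {ξ : H} {ξ' : H'}
    (h : ∀ a : BoundedContinuousFunction Y ℂ, ⟪ξ, E.f a ξ⟫_ℂ = ⟪ξ', E'.f a ξ'⟫_ℂ) :
    E.μ ξ = E'.μ ξ' := by
  refine ext_of_forall_integral_eq_of_IsFiniteMeasure fun r => ?_
  have := h (r.comp Complex.ofReal Complex.isometry_ofReal.lipschitz)
  rw [E.inner_eq _ (BM.of_bcf _), E'.inner_eq _ (BM.of_bcf _)] at this
  have h2 : ∀ ν : Measure Y, ∫ y, (r.comp Complex.ofReal Complex.isometry_ofReal.lipschitz) y ∂ν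
      = ((∫ y, r y ∂ν : ℝ) : ℂ) := fun ν => integral_complex_ofReal
  rw [h2, h2] at this
  exact_mod_cast this

end POVM

namespace PVM

variable (E : PVM Y H)

theorem comm (ha : BM a) (hb : BM b) : E.f a * E.f b = E.f b * E.f a := by
  rw [← E.mul _ _ ha hb, ← E.mul _ _ hb ha, mul_comm]

theorem mul_apply (ha : BM a) (hb : BM b) (ξ : H) : E.f a (E.f b ξ) = E.f (a * b) ξ := by
  rw [E.mul _ _ ha hb]; rfl

/-- push-forward -/
def map (φ : Y → Z) (hφ : Measurable φ) : PVM Z H where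
  toPOVM := E.toPOVM.map φ hφ
  mul a b ha hb := E.mul (a ∘ φ) (b ∘ φ) (ha.comp hφ) (hb.comp hφ)

@[simp] theorem map_f (φ : Y → Z) (hφ : Measurable φ) (a : Z → ℂ) :
    (E.map φ hφ).f a = E.f (a ∘ φ) := rfl

@[simp] theorem map_μ (φ : Y → Z) (hφ : Measurable φ) (ξ : H) :
    (E.map φ hφ).μ ξ = (E.μ ξ).map φ := rfl

variable [CompleteSpace H]

theorem inner_f_f (ha : BM a) (hb : BM b) (η ξ : H) :
    ⟪E.f a η, E.f b ξ⟫_ℂ = ⟪η, E.f (star a * b) ξ⟫_ℂ := by
  rw [E.mul _ _ ha.star hb, E.f_star ha, ContinuousLinearMap.star_eq_adjoint,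
    ← ContinuousLinearMap.adjoint_inner_right]
  rfl

theorem norm_sq (ha : BM a) (ξ : H) : ‖E.f a ξ‖ ^ 2 = ∫ y, ‖a y‖ ^ 2 ∂E.μ ξ := by
  have h1 := E.inner_f_f ha ha ξ ξ
  have h2 : star a * a = fun y => ((‖a y‖ ^ 2 : ℝ) : ℂ) := by
    funext y
    simp [Complex.conj_mul']
  rw [h2, E.inner_ofReal ha.normSq, inner_self_eq_norm_sq_to_K] at h1
  exact Complex.ofReal_injective (by rw [← h1]; simp)

theorem integrable_normSq (ha : BM a) (ξ : H) : Integrable (fun y => ‖a y‖ ^ 2) (E.μ ξ) := by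
  have := (ha.normSq.integrable (E.μ ξ)).re
  simpa only [RCLike.re_to_complex, Complex.ofReal_re] using this

theorem norm_apply_le (ha : BM a) {C : ℝ} (hC : 0 ≤ C) (ξ : H) (h : ∀ᵐ y ∂E.μ ξ, ‖a y‖ ≤ C) :
    ‖E.f a ξ‖ ≤ C * ‖ξ‖ := by
  refine (pow_le_pow_iff_left₀ (norm_nonneg _) (by positivity) two_ne_zero).1 ?_
  rw [E.norm_sq ha, mul_pow, ← E.real_univ, mul_comm, ← smul_eq_mul, ← integral_const]
  exact integral_mono_ae (E.integrable_normSq ha ξ) (integrable_const _)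
    (h.mono fun y hy => pow_le_pow_left₀ (norm_nonneg _) hy 2)

theorem norm_le (ha : BM a) {C : ℝ} (hC : 0 ≤ C) (h : ∀ y, ‖a y‖ ≤ C) : ‖E.f a‖ ≤ C :=
  ContinuousLinearMap.opNorm_le_bound _ hC fun ξ => E.norm_apply_le ha hC ξ (Eventually.of_forall h)

theorem apply_congr (ha : BM a) (hb : BM b) {ξ : H} (h : a =ᵐ[E.μ ξ] b) : E.f a ξ = E.f b ξ := by
  rw [← sub_eq_zero, ← sub_apply, ← E.f_sub ha hb, ← norm_le_zero_iff]
  simpa using E.norm_apply_le (ha.sub hb) le_rfl ξ (h.mono fun y hy => by simp [hy])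

/-- dominated convergence, strong form -/
theorem tendsto {α : Type*} {l : Filter α} [l.IsCountablyGenerated] {u : α → Y → ℂ}
    (hu : ∀ t, BM (u t)) (ha : BM a) {C : ℝ} (hC : ∀ t y, ‖u t y‖ ≤ C) (ξ : H)
    (h : ∀ᵐ y ∂E.μ ξ, Tendsto (fun t => u t y) l (𝓝 (a y))) :
    Tendsto (fun t => E.f (u t) ξ) l (𝓝 (E.f a ξ)) := by
  obtain ⟨D, hD⟩ := ha.bdd
  rw [tendsto_iff_norm_sub_tendsto_zero]
  have h1 : Tendsto (fun t => ∫ y, ‖(u t - a) y‖ ^ 2 ∂E.μ ξ) l (𝓝 (∫ _, (0 : ℝ) ∂E.μ ξ)) := by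
    refine tendsto_integral_filter_of_dominated_convergence (fun _ => (C + D) ^ 2)
      (Eventually.of_forall fun t => (E.integrable_normSq ((hu t).sub ha) ξ).1)
      (Eventually.of_forall fun t => Eventually.of_forall fun y => ?_) (integrable_const _)
      (h.mono fun y hy => ?_)
    · rw [Real.norm_of_nonneg (sq_nonneg _)]
      exact pow_le_pow_left₀ (norm_nonneg _)
        ((norm_sub_le _ _).trans (add_le_add (hC t y) (hD y))) 2
    · simpa using (tendsto_iff_norm_sub_tendsto_zero.1 hy).pow 2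
  have h2 := h1.sqrt
  simp only [integral_zero, Real.sqrt_zero] at h2
  refine h2.congr fun t => ?_
  rw [← E.norm_sq ((hu t).sub ha), Real.sqrt_sq (norm_nonneg _), E.f_sub (hu t) ha]
  rfl

theorem integral_μ_f (ha : BM a) (hb : BM b) (ξ : H) :
    ∫ y, b y ∂E.μ (E.f a ξ) = ∫ y, (‖a y‖ ^ 2 : ℝ) * b y ∂E.μ ξ := by
  rw [← E.inner_eq _ hb, E.mul_apply hb ha, E.inner_f_f ha (hb.mul ha),
    E.inner_eq _ (ha.star.mul (hb.mul ha))]
  refine integral_congr_ae (Eventually.of_forall fun y => ?_)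
  simp only [Pi.mul_apply, Pi.star_apply, RCLike.star_def, Complex.ofReal_pow, ← Complex.conj_mul']
  ring

theorem μ_f (ha : BM a) (ξ : H) :
    E.μ (E.f a ξ) = (E.μ ξ).withDensity fun y => ENNReal.ofReal (‖a y‖ ^ 2) := by
  refine Measure.ext fun s hs => ?_
  have h1 := E.integral_μ_f ha (BM.ind hs) ξ
  rw [integral_indicator hs] at h1
  have h2 : (fun y => ((‖a y‖ ^ 2 : ℝ) : ℂ) * s.indicator (1 : Y → ℂ) y)
      = s.indicator fun y => ((‖a y‖ ^ 2 : ℝ) : ℂ) := by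
    funext y; by_cases hy : y ∈ s <;> simp [hy]
  rw [h2, integral_indicator hs, integral_complex_ofReal] at h1
  simp only [Pi.one_apply, integral_const, MeasurableSet.univ, measureReal_restrict_apply,
    univ_inter, Complex.real_smul, mul_one, Complex.ofReal_inj] at h1
  rw [withDensity_apply _ hs, ← ofReal_integral_eq_lintegral_ofReal
    (E.integrable_normSq ha ξ).integrableOn (Eventually.of_forall fun y => sq_nonneg _), ← h1,
    ofReal_measureReal]

/-- Cauchy–Schwarz bound -/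
theorem norm_inner_le' (ha : BM a) (η ξ : H) :
    ‖⟪η, E.f a ξ⟫_ℂ‖ ≤ √(∫ y, ‖a y‖ ∂E.μ η) * √(∫ y, ‖a y‖ ∂E.μ ξ) := by
  obtain ⟨C, hC⟩ := ha.bdd
  let r : Y → ℂ := fun y => (√‖a y‖ : ℝ)
  have hr : BM r := BM.ofReal ha.meas.norm.sqrt (C := √C) fun y => by
    rw [abs_of_nonneg (Real.sqrt_nonneg _)]; exact Real.sqrt_le_sqrt (hC y)
  have hn : ∀ y, ‖a y / r y‖ = √‖a y‖ := fun y => by
    simp only [r, norm_div, Complex.norm_real, Real.norm_of_nonneg (Real.sqrt_nonneg _)]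
    exact Real.div_sqrt
  have hq : BM (a / r) := ⟨ha.meas.div hr.meas, √C, fun y => by
    rw [Pi.div_apply, hn]; exact Real.sqrt_le_sqrt (hC y)⟩
  have h1 : a = star r * (a / r) := by
    funext y
    simp only [r, Pi.mul_apply, Pi.star_apply, Pi.div_apply, RCLike.star_def, Complex.conj_ofReal]
    by_cases h : a y = 0
    · simp [h]
    · have : ((√‖a y‖ : ℝ) : ℂ) ≠ 0 := by simpa [Real.sqrt_eq_zero'] using h
      field_simp
  have h2 : ∀ ζ : H, ‖E.f r ζ‖ = √(∫ y, ‖a y‖ ∂E.μ ζ) := fun ζ => by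
    rw [← Real.sqrt_sq (norm_nonneg (E.f r ζ)), E.norm_sq hr]
    simp [r]
  have h3 : ‖E.f (a / r) ξ‖ = √(∫ y, ‖a y‖ ∂E.μ ξ) := by
    rw [← Real.sqrt_sq (norm_nonneg (E.f _ ξ)), E.norm_sq hq]
    simp only [Pi.div_apply, hn, Real.sq_sqrt (norm_nonneg _)]
  rw [h1, ← E.inner_f_f hr hq, ← h1, ← h2, ← h3]
  exact norm_inner_le_norm _ _

end PVM

end Crest.Agent.N111
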